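import Vale.Agent.P033Sym.Kernel

namespace Vale.Agent.Results.P033.SymmetryGroup

open Vale.Agent.P033Sym

/-- Restrictions on the affine symmetries of a circulant Hadamard matrix. -/
theorem result :
    ∀ (n : ℕ) [NeZero n] (h : ZMod n → ℤ), (∀ i, h i = 1 ∨ h i = -1) →
      (Matrix.of fun i j : ZMod n => h (j - i)) *
          (Matrix.of fun i j : ZMod n => h (j - i)).transpose =
        (n : ℤ) • (1 : Matrix (ZMod n) (ZMod n) ℤ) →
      (∀ b : ℕ, b ∣ n → ∀ a : ZMod b,
          (∀ x : ZMod b,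
            (∑ i ∈ Finset.univ.filter (fun i : ZMod n => (i.val : ZMod b) = a + x), h i) =
              ∑ i ∈ Finset.univ.filter (fun i : ZMod n => (i.val : ZMod b) = a - x), h i) →
          b ^ 2 ≤ n * 4 ^ b.primeFactors.card) ∧
      ∀ u : ℕ, n = 4 * u ^ 2 → Odd u → 3 < u →
        (¬ ∃ a : ZMod (u ^ 2), ∀ x : ZMod (u ^ 2),
            (∑ i ∈ Finset.univ.filter (fun i : ZMod n => (i.val : ZMod (u ^ 2)) = a + x), h i) =
              ∑ i ∈ Finset.univ.filter (fun i : ZMod n => (i.val : ZMod (u ^ 2)) = a - x), h i) ∧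
        ∀ t s : ZMod n, (∀ i, h (t * i + s) = h i) →
          ((∀ q ∈ u.primeFactors, (t.val : ZMod q) = 1) ∨
            (∀ q ∈ u.primeFactors, (t.val : ZMod q) = -1)) →
          t = 1 ∧ s = 0 := by
  intro n _ h hsgn hmat
  have P : Perfect h := by
    refine ⟨hsgn, fun t ht => ?_⟩
    have h1 := congrFun (congrFun hmat t) 0
    simp [Matrix.mul_apply, ht] at h1
    rw [← h1]
    refine Fintype.sum_equiv (Equiv.addRight t) _ _ fun i => ?_
    simp
  refine ⟨fun b hb a hs => compression_bound P hb a hs, fun u hn hu hu3 => ⟨?_, ?_⟩⟩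
  · rintro ⟨a, hs⟩
    have hb := compression_bound P ⟨4, by rw [hn]; ring⟩ a hs
    rw [Nat.primeFactors_pow u two_ne_zero, hn] at hb
    have h4 : 4 ^ u.primeFactors.card = (2 ^ u.primeFactors.card) ^ 2 := by
      rw [← pow_mul, mul_comm, pow_mul]; norm_num
    rw [h4] at hb
    have h1 := two_pow_lt hu hu3
    rw [pow_succ] at h1
    have h2 : (2 * 2 ^ u.primeFactors.card) ^ 2 < u ^ 2 :=
      Nat.pow_lt_pow_left (by linarith) two_ne_zero
    have h3 : 0 < u ^ 2 := pow_pos (by omega) 2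
    nlinarith
  intro t s H hcase
  have h2n : 2 ∣ n := ⟨2 * u ^ 2, by rw [hn]; ring⟩
  have hodd : ¬ 2 ∣ t.val := by
    rintro ⟨c, hc⟩
    have hu2 : 0 < u ^ 2 := pow_pos (by omega) 2
    have hM : ((2 * u ^ 2 : ℕ) : ZMod n) ≠ 0 := by
      rw [Ne, ZMod.natCast_eq_zero_iff, hn]
      intro hd
      have := Nat.le_of_dvd (by positivity) hd
      omega
    refine hM (P.no_period fun i => ?_)
    rw [← H (i + _), ← H i, mul_add]
    have h0 : t * ((2 * u ^ 2 : ℕ) : ZMod n) = 0 := by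
      rw [← ZMod.natCast_zmod_val t, ← Nat.cast_mul, ZMod.natCast_eq_zero_iff, hc, hn]
      exact ⟨c, by ring⟩
    rw [h0, add_zero]
  have hnil : ∀ (x : ZMod n) (e : ℤ), x = t - (e : ZMod n) → (e = 1 ∨ e = -1) →
      (∀ q ∈ u.primeFactors, (t.val : ZMod q) = (e : ZMod q)) → IsNilpotent x := by
    intro x e hx he hq
    refine dvd_nilpotent fun p hp => ?_
    have hpn := Nat.dvd_of_mem_primeFactors hp
    have hpp := Nat.prime_of_mem_primeFactors hp
    rw [← ZMod.natCast_eq_zero_iff, ← map_natCast (ZMod.castHom hpn (ZMod p)),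
      ZMod.natCast_zmod_val, hx, map_sub, map_intCast, ← ZMod.natCast_zmod_val t, map_natCast,
      sub_eq_zero]
    have hp4 : p ∣ 4 * u ^ 2 := hn ▸ hpn
    rcases hpp.dvd_mul.1 hp4 with h4 | h4
    · have : p = 2 := (Nat.prime_dvd_prime_iff_eq hpp Nat.prime_two).1
        (hpp.dvd_of_dvd_pow (show p ∣ 2 ^ 2 by simpa using h4))
      subst this
      have h1 : (t.val : ZMod 2) = 1 :=
        ZMod.natCast_eq_one_iff_odd.2 (Nat.odd_iff.2 (by omega))
      rcases he with rfl | rfl <;> rw [h1] <;> decide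
    · exact hq p (Nat.mem_primeFactors.2 ⟨hpp, hpp.dvd_of_dvd_pow h4, by omega⟩)
  rcases hcase with hq | hq
  · exact trivial_of_nilpotent hn hu (by omega) P H
      (hnil _ 1 (by simp) (Or.inl rfl) (by simpa using hq))
  · exact (no_minus hn hu hu3 P H
      (hnil _ (-1) (by simp) (Or.inr rfl) (by simpa using hq))).elim

end Vale.Agent.Results.P033.SymmetryGroup
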